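import Mathlib

namespace Vale.Agent.Lib.P249

open Finset

/-- Hitting sets by counting tuples: a family of at most `|ι|` subsets of `A`, each of
size at least `s`, is hit by some nonempty `A' ⊆ A` with `2 |A'| ≤ |A|`, provided
`|ι| (|A| - s) ^ (|A| / 2) < |A| ^ (|A| / 2)`. -/
theorem exists_hitting {α ι : Type*} [DecidableEq α] [Fintype ι] (A : Finset α)
    (T : ι → Finset α) (s : ℕ) (hA : 2 ≤ A.card) (hT : ∀ i, T i ⊆ A)
    (hs : ∀ i, s ≤ (T i).card)
    (hcount : Fintype.card ι * (A.card - s) ^ (A.card / 2) < A.card ^ (A.card / 2)) :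
    ∃ A' : Finset α, A' ⊆ A ∧ A'.Nonempty ∧ 2 * A'.card ≤ A.card ∧
      ∀ i, ∃ w ∈ A', w ∈ T i := by
  classical
  set t : ℕ := A.card / 2 with ht
  have ht1 : 1 ≤ t := by omega
  have ht2 : 2 * t ≤ A.card := by omega
  set G : Finset (Fin t → α) := Fintype.piFinset (fun _ : Fin t => A) with hG
  have hGcard : G.card = A.card ^ t := by
    rw [hG, Fintype.card_piFinset_const]
  set bad : ι → Finset (Fin t → α) := fun i => Fintype.piFinset (fun _ : Fin t => A \ T i)
    with hbad
  have hbadcard : ∀ i, (bad i).card ≤ (A.card - s) ^ t := by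
    intro i
    rw [hbad]
    simp only
    rw [Fintype.card_piFinset_const, Finset.card_sdiff_of_subset (hT i)]
    exact Nat.pow_le_pow_left (Nat.sub_le_sub_left (hs i) _) _
  have hunion : (Finset.univ.biUnion bad).card < G.card := by
    calc (Finset.univ.biUnion bad).card ≤ ∑ i : ι, (bad i).card := Finset.card_biUnion_le
      _ ≤ ∑ _i : ι, (A.card - s) ^ t := Finset.sum_le_sum (fun i _ => hbadcard i)
      _ = Fintype.card ι * (A.card - s) ^ t := by
          rw [Finset.sum_const, Finset.card_univ, smul_eq_mul]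
      _ < A.card ^ t := hcount
      _ = G.card := hGcard.symm
  obtain ⟨g, hgG, hgbad⟩ : ∃ g ∈ G, g ∉ Finset.univ.biUnion bad := by
    by_contra hcon
    have hsub : G ⊆ Finset.univ.biUnion bad := by
      intro g hg
      by_contra hgn
      exact hcon ⟨g, hg, hgn⟩
    exact absurd (Finset.card_le_card hsub) (not_le.mpr hunion)
  have hgA : ∀ j, g j ∈ A := fun j => (Fintype.mem_piFinset.mp hgG) j
  refine ⟨Finset.univ.image g, ?_, ?_, ?_, ?_⟩
  · intro w hw
    obtain ⟨j, _, rfl⟩ := Finset.mem_image.mp hw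
    exact hgA j
  · exact ⟨g ⟨0, ht1⟩, Finset.mem_image_of_mem g (Finset.mem_univ _)⟩
  · have h1 : (Finset.univ.image g).card ≤ t := by
      calc (Finset.univ.image g).card ≤ (Finset.univ : Finset (Fin t)).card :=
            Finset.card_image_le
        _ = t := by rw [Finset.card_univ, Fintype.card_fin]
    omega
  · intro i
    have hgi : g ∉ bad i := fun h =>
      hgbad (Finset.mem_biUnion.mpr ⟨i, Finset.mem_univ i, h⟩)
    rw [hbad] at hgi
    simp only [Fintype.mem_piFinset, not_forall] at hgi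
    obtain ⟨j, hj⟩ := hgi
    refine ⟨g j, Finset.mem_image_of_mem g (Finset.mem_univ j), ?_⟩
    by_contra hn
    exact hj (Finset.mem_sdiff.mpr ⟨hgA j, hn⟩)

end Vale.Agent.Lib.P249
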