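import Mathlib
import Vale.Agent.Lib.P249.Hitting

namespace Vale.Agent.Lib.P249

open Finset

/-- One level of the hub hierarchy: a nonempty `A' ⊆ A` of at most half the size such
that for every `v`, fewer than `s` points of `A` are strictly closer to `v` than the
nearest point of `A'`. -/
theorem exists_level {V : Type*} [Fintype V] [DecidableEq V] (ρ : V → V → ℝ)
    (A : Finset V) (s : ℕ) (hA : 2 ≤ A.card)
    (hcount : Fintype.card V ^ 2 * (A.card - s) ^ (A.card / 2) < A.card ^ (A.card / 2)) :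
    ∃ A' : Finset V, A' ⊆ A ∧ A'.Nonempty ∧ 2 * A'.card ≤ A.card ∧
      ∀ v u, u ∈ A' → (∀ w ∈ A', ρ v u ≤ ρ v w) →
        (A.filter (fun w => ρ v w < ρ v u)).card < s := by
  classical
  have hcard : Fintype.card {q : V × V // s ≤ (A.filter (fun w => ρ q.1 w < ρ q.1 q.2)).card}
      ≤ Fintype.card V ^ 2 := by
    calc Fintype.card {q : V × V // s ≤ (A.filter (fun w => ρ q.1 w < ρ q.1 q.2)).card}
        ≤ Fintype.card (V × V) := Fintype.card_subtype_le _
      _ = Fintype.card V ^ 2 := by rw [Fintype.card_prod, sq]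
  have hcount' : Fintype.card {q : V × V // s ≤ (A.filter (fun w => ρ q.1 w < ρ q.1 q.2)).card}
      * (A.card - s) ^ (A.card / 2) < A.card ^ (A.card / 2) :=
    lt_of_le_of_lt (Nat.mul_le_mul_right _ hcard) hcount
  obtain ⟨A', hA'A, hne, hhalf, hhit⟩ := exists_hitting A
    (fun q : {q : V × V // s ≤ (A.filter (fun w => ρ q.1 w < ρ q.1 q.2)).card} =>
      A.filter (fun w => ρ q.1.1 w < ρ q.1.1 q.1.2)) s hA
    (fun q => Finset.filter_subset _ _) (fun q => q.2) hcount'
  refine ⟨A', hA'A, hne, hhalf, ?_⟩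
  intro v u _ hmin
  by_contra hcon
  have hcon' : s ≤ (A.filter (fun w => ρ v w < ρ v u)).card := not_lt.mp hcon
  obtain ⟨w, hwA', hw⟩ := hhit ⟨(v, u), hcon'⟩
  have h1 : ρ v w < ρ v u := (Finset.mem_filter.mp hw).2
  have h2 := hmin w hwA'
  linarith

end Vale.Agent.Lib.P249
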