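import Mathlib

namespace Vale.Agent.Lib.P249

/-- The counting hypothesis of the hitting set lemma for `|ι| ≤ n ^ 2`, `n < 2 ^ L` and
`s = 6 L`. -/
theorem level_count (n L a : ℕ) (hn : n < 2 ^ L) (ha2 : 2 ≤ a) (han : a ≤ n) :
    n ^ 2 * (a - 6 * L) ^ (a / 2) < a ^ (a / 2) := by
  have ht1 : 1 ≤ a / 2 := by omega
  have ht3 : a ≤ 3 * (a / 2) := by omega
  have hapos : 0 < a := by omega
  rcases Nat.lt_or_ge (6 * L) a with h | h
  · generalize a / 2 = t at ht1 ht3 ⊢
    have hb : 0 < a - 6 * L := by omega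
    have hn2 : n ^ 2 < 4 ^ L := by
      have h1 : n ^ 2 < (2 ^ L) ^ 2 := Nat.pow_lt_pow_left hn (by norm_num)
      calc n ^ 2 < (2 ^ L) ^ 2 := h1
        _ = 4 ^ L := by rw [← pow_mul, mul_comm, pow_mul]; norm_num
    have key : 4 ^ L * (a - 6 * L) ^ t ≤ a ^ t := by
      have hreal : ((4:ℝ) ^ L * ((a:ℝ) - 6 * L) ^ t) ≤ (a:ℝ) ^ t := by
        have ha0 : (0:ℝ) < a := by exact_mod_cast hapos
        have hlt : (6 * L : ℝ) < a := by exact_mod_cast h
        have h1 : ((a:ℝ) - 6 * L) / a ≤ Real.exp (-(6 * L / a)) := by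
          have h0 := Real.one_sub_le_exp_neg (6 * (L:ℝ) / a)
          calc ((a:ℝ) - 6 * L) / a = 1 - 6 * L / a := by field_simp
            _ ≤ _ := h0
        have hnn : 0 ≤ ((a:ℝ) - 6 * L) / a := by
          apply div_nonneg _ ha0.le
          linarith
        have h2 : (((a:ℝ) - 6 * L) / a) ^ t ≤ Real.exp (-(6 * L / a)) ^ t :=
          pow_le_pow_left₀ hnn h1 t
        have h3 : Real.exp (-(6 * (L:ℝ) / a)) ^ t = Real.exp (-(6 * L / a) * t) := by
          rw [← Real.exp_nat_mul]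
          congr 1
          ring
        have h4 : Real.exp (-(6 * (L:ℝ) / a) * t) ≤ Real.exp (-(2 * L)) := by
          apply Real.exp_le_exp.mpr
          have h31 : (a:ℝ) ≤ 3 * t := by exact_mod_cast ht3
          have hL0 : (0:ℝ) ≤ L := Nat.cast_nonneg L
          rw [neg_mul, neg_le_neg_iff, div_mul_eq_mul_div, le_div_iff₀ ha0]
          nlinarith
        have h5 : (4:ℝ) ^ L ≤ Real.exp (2 * L) := by
          have h41 : (4:ℝ) ≤ Real.exp 2 := by
            have h6 := Real.add_one_le_exp (1:ℝ)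
            have h2e : Real.exp 2 = Real.exp 1 * Real.exp 1 := by
              rw [← Real.exp_add]; norm_num
            nlinarith
          calc (4:ℝ) ^ L ≤ (Real.exp 2) ^ L := pow_le_pow_left₀ (by norm_num) h41 L
            _ = Real.exp (2 * L) := by
              rw [← Real.exp_nat_mul]
              congr 1
              ring
        have h7 : (((a:ℝ) - 6 * L) / a) ^ t ≤ Real.exp (-(2 * L)) := by
          rw [h3] at h2
          exact h2.trans h4
        have h8 : (4:ℝ) ^ L * (((a:ℝ) - 6 * L) / a) ^ t ≤ 1 := by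
          calc (4:ℝ) ^ L * (((a:ℝ) - 6 * L) / a) ^ t
              ≤ Real.exp (2 * L) * Real.exp (-(2 * L)) :=
                mul_le_mul h5 h7 (pow_nonneg hnn t) (Real.exp_pos _).le
            _ = 1 := by rw [← Real.exp_add]; simp
        have hat : (0:ℝ) < (a:ℝ) ^ t := pow_pos ha0 t
        rw [div_pow, ← mul_div_assoc, div_le_one hat] at h8
        exact h8
      have hcast : ((a - 6 * L : ℕ) : ℝ) = (a:ℝ) - 6 * L := by
        rw [Nat.cast_sub h.le]; push_cast; ring
      have : ((4 ^ L * (a - 6 * L) ^ t : ℕ) : ℝ) ≤ ((a ^ t : ℕ) : ℝ) := by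
        push_cast
        rw [hcast]
        exact hreal
      exact_mod_cast this
    have hbt : 0 < (a - 6 * L) ^ t := Nat.pow_pos hb
    calc n ^ 2 * (a - 6 * L) ^ t < 4 ^ L * (a - 6 * L) ^ t :=
          Nat.mul_lt_mul_of_pos_right hn2 hbt
      _ ≤ a ^ t := key
  · have h0 : a - 6 * L = 0 := by omega
    rw [h0, zero_pow (by omega), mul_zero]
    exact Nat.pow_pos hapos

end Vale.Agent.Lib.P249
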