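import Mathlib
import Vale.Agent.Lib.P249.Level
import Vale.Agent.Lib.P249.LevelCount

namespace Vale.Agent.Lib.P249

open Finset

private theorem hubs_nonneg {V : Type*} (ρ : V → V → ℝ)
    (h0 : ∀ v, ρ v v = 0) (hsymm : ∀ u v, ρ u v = ρ v u)
    (htri : ∀ u v w, ρ u w ≤ ρ u v + ρ v w) (u v : V) : 0 ≤ ρ u v := by
  have h1 := htri u v u
  rw [h0 u, hsymm v u] at h1
  linarith

private theorem hubs_claim {V : Type*} [Fintype V] [DecidableEq V] (ρ : V → V → ℝ)
    (h0 : ∀ v, ρ v v = 0) (hsymm : ∀ u v, ρ u v = ρ v u)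
    (htri : ∀ u v w, ρ u w ≤ ρ u v + ρ v w) (L : ℕ) (hL1 : 1 ≤ L)
    (hL : Fintype.card V < 2 ^ L) :
    ∀ (j : ℕ) (A : Finset V), A.Nonempty → A.card < 2 ^ j →
      ∃ H : V → Finset V, (∀ v, (H v).card ≤ j * (6 * L)) ∧
        ∀ (u v : V) (c : ℝ), 0 ≤ c → (∃ a ∈ A, ρ u a ≤ c * ρ u v) →
          ∃ w, w ∈ H u ∧ w ∈ H v ∧ ρ u w ≤ (c + j) * ρ u v ∧ ρ v w ≤ (c + j) * ρ u v := by
  have hnn := hubs_nonneg ρ h0 hsymm htri
  intro j
  induction j with
  | zero =>
    intro A hAne hAcard
    exfalso
    have : A.card = 0 := by simpa using hAcard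
    rw [Finset.card_eq_zero] at this
    rw [this] at hAne
    exact Finset.not_nonempty_empty hAne
  | succ j ih =>
    intro A hAne hAcard
    by_cases hA1 : A.card ≤ 1
    · -- a single point
      have hc1 : A.card = 1 := by
        have := Finset.card_pos.mpr hAne
        omega
      obtain ⟨z, rfl⟩ := Finset.card_eq_one.mp hc1
      refine ⟨fun _ => {z}, ?_, ?_⟩
      · intro v
        rw [Finset.card_singleton]
        have : 1 * (6 * 1) ≤ (j + 1) * (6 * L) :=
          Nat.mul_le_mul (by omega) (Nat.mul_le_mul_left 6 hL1)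
        omega
      · intro u v c hc ⟨a, ha, hau⟩
        rw [Finset.mem_singleton] at ha
        subst ha
        have huv := hnn u v
        have hj : (0 : ℝ) ≤ (j : ℝ) := Nat.cast_nonneg j
        refine ⟨a, Finset.mem_singleton_self a, Finset.mem_singleton_self a, ?_, ?_⟩
        · push_cast
          nlinarith
        · have h1 := htri v u a
          rw [hsymm v u] at h1
          push_cast
          nlinarith
    · -- at least two points
      have hA2 : 2 ≤ A.card := by omega
      have hcount := level_count (Fintype.card V) L A.card hL hA2 (Finset.card_le_univ A)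
      obtain ⟨A', hA'sub, hA'ne, hA'card, hball⟩ := exists_level ρ A (6 * L) hA2 hcount
      have hA'lt : A'.card < 2 ^ j := by
        have : 2 ^ (j + 1) = 2 * 2 ^ j := by ring
        omega
      obtain ⟨H', hH'card, hH'q⟩ := ih A' hA'ne hA'lt
      have hp : ∀ v : V, ∃ p ∈ A, ∀ w ∈ A, ρ v p ≤ ρ v w :=
        fun v => Finset.exists_min_image A (ρ v) hAne
      have hq : ∀ v : V, ∃ q ∈ A', ∀ w ∈ A', ρ v q ≤ ρ v w :=
        fun v => Finset.exists_min_image A' (ρ v) hA'ne
      choose p hpA hpmin using hp
      choose q hqA' hqmin using hq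
      refine ⟨fun v => insert (p v) (H' v ∪ A.filter (fun w => ρ v w < ρ v (q v))), ?_, ?_⟩
      · intro v
        have h1 := hH'card v
        have h2 := hball v (q v) (hqA' v) (hqmin v)
        have h3 : (insert (p v) (H' v ∪ A.filter (fun w => ρ v w < ρ v (q v)))).card ≤
            (H' v ∪ A.filter (fun w => ρ v w < ρ v (q v))).card + 1 := Finset.card_insert_le _ _
        have h4 : (H' v ∪ A.filter (fun w => ρ v w < ρ v (q v))).card ≤
            (H' v).card + (A.filter (fun w => ρ v w < ρ v (q v))).card := Finset.card_union_le _ _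
        have h5 : (j + 1) * (6 * L) = j * (6 * L) + 6 * L := by ring
        show (insert (p v) (H' v ∪ A.filter (fun w => ρ v w < ρ v (q v)))).card ≤
          (j + 1) * (6 * L)
        rw [h5]
        generalize j * (6 * L) = K at h1 ⊢
        omega
      · intro u v c hc ⟨a, ha, hau⟩
        have huv := hnn u v
        have hj : (0 : ℝ) ≤ (j : ℝ) := Nat.cast_nonneg j
        have hpu : ρ u (p u) ≤ c * ρ u v := le_trans (hpmin u a ha) hau
        by_cases hlt : ρ v (p u) < ρ v (q v)
        · refine ⟨p u, Finset.mem_insert_self _ _, ?_, ?_, ?_⟩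
          · exact Finset.mem_insert_of_mem
              (Finset.mem_union_right _ (Finset.mem_filter.mpr ⟨hpA u, hlt⟩))
          · push_cast
            nlinarith
          · have h1 := htri v u (p u)
            rw [hsymm v u] at h1
            push_cast
            nlinarith
        · have hle : ρ v (q v) ≤ ρ v (p u) := not_lt.mp hlt
          have h1 := htri v u (p u)
          have hvu : ρ v u = ρ u v := hsymm v u
          have hq1 : ρ v (q v) ≤ (c + 1) * ρ v u := by
            rw [hvu]
            rw [hvu] at h1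
            nlinarith
          obtain ⟨w, hwv, hwu, hw1, hw2⟩ :=
            hH'q v u (c + 1) (by linarith) ⟨q v, hqA' v, hq1⟩
          refine ⟨w, ?_, ?_, ?_, ?_⟩
          · exact Finset.mem_insert_of_mem (Finset.mem_union_left _ hwu)
          · exact Finset.mem_insert_of_mem (Finset.mem_union_left _ hwv)
          · rw [hvu] at hw2
            push_cast
            linarith
          · rw [hvu] at hw1
            push_cast
            linarith

/-- Hub sets of a finite pseudometric (a deterministic form of the Thorup and Zwick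
bunches): every point gets at most `6 L ^ 2` hubs, and any two points `u, v` share a hub
within distance `L * ρ u v` of both. -/
theorem exists_hubs {V : Type*} [Fintype V] [DecidableEq V] (ρ : V → V → ℝ)
    (h0 : ∀ v, ρ v v = 0) (hsymm : ∀ u v, ρ u v = ρ v u)
    (htri : ∀ u v w, ρ u w ≤ ρ u v + ρ v w) (L : ℕ) (hL : Fintype.card V < 2 ^ L) :
    ∃ H : V → Finset V, (∀ v, (H v).card ≤ 6 * L ^ 2) ∧
      ∀ u v, ∃ w, w ∈ H u ∧ w ∈ H v ∧ ρ u w ≤ L * ρ u v ∧ ρ v w ≤ L * ρ u v := by
  rcases isEmpty_or_nonempty V with hV | hV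
  · exact ⟨fun _ => ∅, fun v => isEmptyElim v, fun u => isEmptyElim u⟩
  · have hcard : 1 ≤ Fintype.card V := Fintype.card_pos
    have hL1 : 1 ≤ L := by
      by_contra hcon
      have : L = 0 := by omega
      rw [this, pow_zero] at hL
      omega
    have hne : (Finset.univ : Finset V).Nonempty := Finset.univ_nonempty
    have hlt : (Finset.univ : Finset V).card < 2 ^ L := by
      rw [Finset.card_univ]; exact hL
    obtain ⟨H, hHcard, hHq⟩ := hubs_claim ρ h0 hsymm htri L hL1 hL L Finset.univ hne hlt
    refine ⟨H, ?_, ?_⟩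
    · intro v
      have h1 := hHcard v
      have h2 : L * (6 * L) = 6 * L ^ 2 := by ring
      omega
    · intro u v
      obtain ⟨w, hwu, hwv, hw1, hw2⟩ :=
        hHq u v 0 le_rfl ⟨u, Finset.mem_univ u, by rw [h0 u, zero_mul]⟩
      refine ⟨w, hwu, hwv, ?_, ?_⟩
      · simpa using hw1
      · simpa using hw2

end Vale.Agent.Lib.P249
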