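import Mathlib

namespace Vale.Agent.Lib.P249

open Finset

private theorem chernoff_exp_le (u : ℝ) (hu : |u| ≤ 1) : Real.exp u ≤ 1 + u + u ^ 2 := by
  have h := Real.abs_exp_sub_one_sub_id_le hu
  have h2 := le_abs_self (Real.exp u - 1 - u)
  linarith

private theorem chernoff_sum_pow {K : Type*} [Fintype K] (π : K → ℝ) (z : K → ℝ) (c : ℝ)
    (N : ℕ) :
    ∑ τ : Fin N → K, (∏ t, π (τ t)) * Real.exp (c * ∑ t, z (τ t)) =
      (∑ k, π k * Real.exp (c * z k)) ^ N := by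
  classical
  rw [Fintype.sum_pow]
  refine Finset.sum_congr rfl fun τ _ => ?_
  rw [Finset.mul_sum, Real.exp_sum, ← Finset.prod_mul_distrib]

private theorem chernoff_mgf_le {K : Type*} [Fintype K] (π : K → ℝ) (hπ0 : ∀ k, 0 ≤ π k)
    (hπ1 : ∑ k, π k = 1) (z : K → ℝ) (S : ℝ) (hz0 : ∀ k, 0 ≤ z k) (hzS : ∀ k, z k ≤ S)
    (hmean : ∑ k, π k * z k = 1) (c : ℝ) (hc : ∀ k, |c * z k| ≤ 1) :
    ∑ k, π k * Real.exp (c * z k) ≤ Real.exp (c + c ^ 2 * S) := by
  have h1 : ∀ k, π k * Real.exp (c * z k)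
      ≤ π k + c * (π k * z k) + c ^ 2 * S * (π k * z k) := by
    intro k
    have he := chernoff_exp_le (c * z k) (hc k)
    have hz2 : z k ^ 2 ≤ S * z k := by nlinarith [hz0 k, hzS k]
    have hc2 : 0 ≤ c ^ 2 := sq_nonneg c
    have h3 : (c * z k) ^ 2 ≤ c ^ 2 * S * z k := by
      have := mul_le_mul_of_nonneg_left hz2 hc2
      rw [mul_pow]
      linarith
    have h4 : Real.exp (c * z k) ≤ 1 + c * z k + c ^ 2 * S * z k := by linarith
    have h5 := mul_le_mul_of_nonneg_left h4 (hπ0 k)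
    linarith
  calc ∑ k, π k * Real.exp (c * z k)
      ≤ ∑ k, (π k + c * (π k * z k) + c ^ 2 * S * (π k * z k)) :=
        Finset.sum_le_sum fun k _ => h1 k
    _ = 1 + c + c ^ 2 * S := by
        rw [Finset.sum_add_distrib, Finset.sum_add_distrib, ← Finset.mul_sum, ← Finset.mul_sum,
          hπ1, hmean]
        ring
    _ ≤ Real.exp (c + c ^ 2 * S) := by
        have := Real.add_one_le_exp (c + c ^ 2 * S)
        linarith

private theorem chernoff_tail {K : Type*} [Fintype K] (π : K → ℝ) (hπ0 : ∀ k, 0 ≤ π k)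
    (hπ1 : ∑ k, π k = 1) (z : K → ℝ) (S : ℝ) (hS : 0 < S) (hz0 : ∀ k, 0 ≤ z k)
    (hzS : ∀ k, z k ≤ S) (hmean : ∑ k, π k * z k = 1) (ε : ℝ) (hε0 : 0 < ε) (hε1 : ε < 1)
    (N : ℕ) (lam : ℝ) (hlam : lam = ε / (2 * S)) :
    ∑ τ : Fin N → K, (∏ t, π (τ t)) *
        (Real.exp (lam * (∑ t, z (τ t) - (1 + ε) * N)) +
          Real.exp (lam * ((1 - ε) * N - ∑ t, z (τ t))))
      ≤ 2 * Real.exp (-((N : ℝ) * ε ^ 2 / (4 * S))) := by
  have hlam0 : 0 < lam := by
    rw [hlam]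
    positivity
  have hbound : ∀ k, |lam * z k| ≤ 1 := by
    intro k
    rw [abs_of_nonneg (mul_nonneg hlam0.le (hz0 k))]
    have h1 : lam * z k ≤ lam * S := mul_le_mul_of_nonneg_left (hzS k) hlam0.le
    have h2 : lam * S = ε / 2 := by
      rw [hlam]
      field_simp
    linarith
  have hbound' : ∀ k, |(-lam) * z k| ≤ 1 := by
    intro k
    rw [neg_mul, abs_neg]
    exact hbound k
  have hterm : ∀ τ : Fin N → K, (∏ t, π (τ t)) *
        (Real.exp (lam * (∑ t, z (τ t) - (1 + ε) * N)) +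
          Real.exp (lam * ((1 - ε) * N - ∑ t, z (τ t))))
      = Real.exp (-(lam * (1 + ε) * N)) * ((∏ t, π (τ t)) * Real.exp (lam * ∑ t, z (τ t)))
        + Real.exp (lam * (1 - ε) * N) *
          ((∏ t, π (τ t)) * Real.exp ((-lam) * ∑ t, z (τ t))) := by
    intro τ
    have e1 : Real.exp (lam * (∑ t, z (τ t) - (1 + ε) * N))
        = Real.exp (-(lam * (1 + ε) * N)) * Real.exp (lam * ∑ t, z (τ t)) := by
      rw [← Real.exp_add]
      congr 1
      ring
    have e2 : Real.exp (lam * ((1 - ε) * N - ∑ t, z (τ t)))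
        = Real.exp (lam * (1 - ε) * N) * Real.exp ((-lam) * ∑ t, z (τ t)) := by
      rw [← Real.exp_add]
      congr 1
      ring
    rw [e1, e2]
    ring
  rw [Finset.sum_congr rfl (fun τ _ => hterm τ), Finset.sum_add_distrib, ← Finset.mul_sum,
    ← Finset.mul_sum, chernoff_sum_pow, chernoff_sum_pow]
  have hA : (∑ k, π k * Real.exp (lam * z k)) ^ N ≤ Real.exp (lam + lam ^ 2 * S) ^ N :=
    pow_le_pow_left₀ (Finset.sum_nonneg fun k _ => mul_nonneg (hπ0 k) (Real.exp_pos _).le)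
      (chernoff_mgf_le π hπ0 hπ1 z S hz0 hzS hmean lam hbound) N
  have hB : (∑ k, π k * Real.exp ((-lam) * z k)) ^ N
      ≤ Real.exp (-lam + (-lam) ^ 2 * S) ^ N :=
    pow_le_pow_left₀ (Finset.sum_nonneg fun k _ => mul_nonneg (hπ0 k) (Real.exp_pos _).le)
      (chernoff_mgf_le π hπ0 hπ1 z S hz0 hzS hmean (-lam) hbound') N
  have hE1 : Real.exp (-(lam * (1 + ε) * N)) * Real.exp (lam + lam ^ 2 * S) ^ N
      = Real.exp (-((N : ℝ) * ε ^ 2 / (4 * S))) := by
    rw [← Real.exp_nat_mul, ← Real.exp_add]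
    congr 1
    rw [hlam]
    field_simp
    ring
  have hE2 : Real.exp (lam * (1 - ε) * N) * Real.exp (-lam + (-lam) ^ 2 * S) ^ N
      = Real.exp (-((N : ℝ) * ε ^ 2 / (4 * S))) := by
    rw [← Real.exp_nat_mul, ← Real.exp_add]
    congr 1
    rw [hlam]
    field_simp
    ring
  calc Real.exp (-(lam * (1 + ε) * N)) * (∑ k, π k * Real.exp (lam * z k)) ^ N
        + Real.exp (lam * (1 - ε) * N) * (∑ k, π k * Real.exp ((-lam) * z k)) ^ N
      ≤ Real.exp (-(lam * (1 + ε) * N)) * Real.exp (lam + lam ^ 2 * S) ^ N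
        + Real.exp (lam * (1 - ε) * N) * Real.exp (-lam + (-lam) ^ 2 * S) ^ N :=
        add_le_add (mul_le_mul_of_nonneg_left hA (Real.exp_pos _).le)
          (mul_le_mul_of_nonneg_left hB (Real.exp_pos _).le)
    _ = 2 * Real.exp (-((N : ℝ) * ε ^ 2 / (4 * S))) := by
        rw [hE1, hE2]
        ring

/-- Finite Chernoff bound by weighted counting: if `π` is a probability vector on `K`
and each `Z e` takes values in `[0, S]` with `π`-mean `1`, then for `N` large some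
`N`-tuple of indices of positive weight has all empirical means within `ε` of `1`. -/
theorem exists_good_sample {K E : Type*} [Fintype K] [Fintype E]
    (π : K → ℝ) (hπ0 : ∀ k, 0 ≤ π k) (hπ1 : ∑ k, π k = 1)
    (Z : E → K → ℝ) (S : ℝ) (hS : 0 < S) (hZ0 : ∀ e k, 0 ≤ Z e k) (hZS : ∀ e k, Z e k ≤ S)
    (hmean : ∀ e, ∑ k, π k * Z e k = 1) (ε : ℝ) (hε0 : 0 < ε) (hε1 : ε < 1) (N : ℕ)
    (hN : 2 * (Fintype.card E : ℝ) * Real.exp (-((N : ℝ) * ε ^ 2 / (4 * S))) < 1) :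
    ∃ τ : Fin N → K, (∀ t, 0 < π (τ t)) ∧
      ∀ e, (1 - ε) * N < ∑ t, Z e (τ t) ∧ ∑ t, Z e (τ t) < (1 + ε) * N := by
  classical
  obtain ⟨lam, hlam⟩ : ∃ lam : ℝ, lam = ε / (2 * S) := ⟨_, rfl⟩
  have hlam0 : 0 < lam := by
    rw [hlam]
    positivity
  have hP0 : ∀ τ : Fin N → K, 0 ≤ ∏ t, π (τ t) := fun τ =>
    Finset.prod_nonneg fun t _ => hπ0 (τ t)
  have hsumP : ∑ τ : Fin N → K, ∏ t, π (τ t) = 1 := by
    rw [← Fintype.sum_pow, hπ1, one_pow]
  have hsumPΦ : ∑ τ : Fin N → K, (∏ t, π (τ t)) *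
      ∑ e, (Real.exp (lam * (∑ t, Z e (τ t) - (1 + ε) * N)) +
        Real.exp (lam * ((1 - ε) * N - ∑ t, Z e (τ t))))
      ≤ 2 * (Fintype.card E : ℝ) * Real.exp (-((N : ℝ) * ε ^ 2 / (4 * S))) := by
    simp only [Finset.mul_sum]
    rw [Finset.sum_comm]
    calc ∑ e, ∑ τ : Fin N → K, (∏ t, π (τ t)) *
          (Real.exp (lam * (∑ t, Z e (τ t) - (1 + ε) * N)) +
            Real.exp (lam * ((1 - ε) * N - ∑ t, Z e (τ t))))
        ≤ ∑ _e : E, 2 * Real.exp (-((N : ℝ) * ε ^ 2 / (4 * S))) :=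
          Finset.sum_le_sum fun e _ =>
            chernoff_tail π hπ0 hπ1 (Z e) S hS (hZ0 e) (hZS e) (hmean e) ε hε0 hε1 N lam hlam
      _ = 2 * (Fintype.card E : ℝ) * Real.exp (-((N : ℝ) * ε ^ 2 / (4 * S))) := by
          rw [Finset.sum_const, Finset.card_univ, nsmul_eq_mul]
          ring
  have hlt : ∑ τ : Fin N → K, (∏ t, π (τ t)) *
      ∑ e, (Real.exp (lam * (∑ t, Z e (τ t) - (1 + ε) * N)) +
        Real.exp (lam * ((1 - ε) * N - ∑ t, Z e (τ t))))
      < ∑ τ : Fin N → K, ∏ t, π (τ t) := by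
    rw [hsumP]
    exact lt_of_le_of_lt hsumPΦ hN
  obtain ⟨τ, -, hτ⟩ := Finset.exists_lt_of_sum_lt hlt
  have hPpos : 0 < ∏ t, π (τ t) := by
    rcases (hP0 τ).lt_or_eq with h | h
    · exact h
    · rw [← h] at hτ
      simp at hτ
  have hΦ : ∑ e, (Real.exp (lam * (∑ t, Z e (τ t) - (1 + ε) * N)) +
      Real.exp (lam * ((1 - ε) * N - ∑ t, Z e (τ t)))) < 1 := by
    by_contra hcon
    push Not at hcon
    have h1 := mul_le_mul_of_nonneg_left hcon hPpos.le
    linarith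
  refine ⟨τ, fun t => ?_, fun e => ?_⟩
  · rcases (hπ0 (τ t)).lt_or_eq with h | h
    · exact h
    · exfalso
      have h0 : ∏ t, π (τ t) = 0 := Finset.prod_eq_zero (Finset.mem_univ t) h.symm
      linarith
  · have hterm : Real.exp (lam * (∑ t, Z e (τ t) - (1 + ε) * N)) +
        Real.exp (lam * ((1 - ε) * N - ∑ t, Z e (τ t)))
        ≤ ∑ e, (Real.exp (lam * (∑ t, Z e (τ t) - (1 + ε) * N)) +
          Real.exp (lam * ((1 - ε) * N - ∑ t, Z e (τ t)))) :=
      Finset.single_le_sum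
        (f := fun e => Real.exp (lam * (∑ t, Z e (τ t) - (1 + ε) * N)) +
          Real.exp (lam * ((1 - ε) * N - ∑ t, Z e (τ t))))
        (fun e _ => add_nonneg (Real.exp_pos _).le (Real.exp_pos _).le) (Finset.mem_univ e)
    have h1 : Real.exp (lam * (∑ t, Z e (τ t) - (1 + ε) * N)) < 1 := by
      have := Real.exp_pos (lam * ((1 - ε) * N - ∑ t, Z e (τ t)))
      linarith
    have h2 : Real.exp (lam * ((1 - ε) * N - ∑ t, Z e (τ t))) < 1 := by
      have := Real.exp_pos (lam * (∑ t, Z e (τ t) - (1 + ε) * N))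
      linarith
    rw [Real.exp_lt_one_iff] at h1 h2
    constructor
    · by_contra hc
      push Not at hc
      have h3 : 0 ≤ lam * ((1 - ε) * N - ∑ t, Z e (τ t)) :=
        mul_nonneg hlam0.le (by linarith)
      linarith
    · by_contra hc
      push Not at hc
      have h3 : 0 ≤ lam * (∑ t, Z e (τ t) - (1 + ε) * N) :=
        mul_nonneg hlam0.le (by linarith)
      linarith

end Vale.Agent.Lib.P249
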