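import Mathlib
import Vale.Agent.Lib.P249.Chernoff

namespace Vale.Agent.Lib.P249

open Finset

/-- Importance sampling of coordinates: if `s k` bounds the sensitivity of coordinate `k`
(`c k e ≤ s k * ∑ k', c k' e` for every `e`), then `N > 4 S log (2 |E|) / ε ^ 2` reweighted
coordinates preserve every total `∑ k, c k e` up to a factor `1 ± ε`. -/
theorem exists_sample_weights {K E : Type*} [Fintype K] [Fintype E]
    (c : K → E → ℝ) (hc : ∀ k e, 0 ≤ c k e)
    (s : K → ℝ) (hs0 : ∀ k, 0 ≤ s k) (hs : ∀ k e, c k e ≤ s k * ∑ k', c k' e)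
    (hS : 0 < ∑ k, s k) (ε : ℝ) (hε0 : 0 < ε) (hε1 : ε < 1) (N : ℕ)
    (hN : 4 * (∑ k, s k) * Real.log (2 * (Fintype.card E : ℝ)) < (N : ℝ) * ε ^ 2) :
    ∃ (τ : Fin N → K) (w : Fin N → ℝ), (∀ t, 0 ≤ w t) ∧
      ∀ e, (1 - ε) * ∑ k, c k e ≤ ∑ t, w t * c (τ t) e ∧
        ∑ t, w t * c (τ t) e ≤ (1 + ε) * ∑ k, c k e := by
  classical
  obtain ⟨D, hD⟩ : ∃ D : E → ℝ, ∀ e, D e = ∑ k, c k e := ⟨fun e => ∑ k, c k e, fun e => rfl⟩
  obtain ⟨S, hSd⟩ : ∃ S : ℝ, S = ∑ k, s k := ⟨_, rfl⟩
  simp only [← hD] at hs ⊢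
  rw [← hSd] at hS hN
  have hSne : S ≠ 0 := hS.ne'
  have hD0 : ∀ e, 0 ≤ D e := fun e => by
    rw [hD]
    exact Finset.sum_nonneg fun k _ => hc k e
  have hczero : ∀ e, D e = 0 → ∀ k, c k e = 0 := by
    intro e he k
    rw [hD] at he
    exact (Finset.sum_eq_zero_iff_of_nonneg (fun k _ => hc k e)).mp he k (Finset.mem_univ k)
  by_cases hall : ∀ e, D e = 0
  · have hK : Nonempty K := by
      by_contra hK
      rw [not_nonempty_iff] at hK
      have : S = 0 := by
        rw [hSd]
        simp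
      exact hSne this
    obtain ⟨k0⟩ := hK
    refine ⟨fun _ => k0, fun _ => 0, fun _ => le_rfl, fun e => ?_⟩
    rw [hall e]
    simp
  · obtain ⟨e0, he0⟩ := not_forall.mp hall
    have hDe0 : 0 < D e0 := lt_of_le_of_ne (hD0 e0) (Ne.symm he0)
    have hcardE : (1 : ℝ) ≤ (Fintype.card E : ℝ) := by
      have : 0 < Fintype.card E := Fintype.card_pos_iff.mpr ⟨e0⟩
      exact_mod_cast this
    have hlog : 0 < Real.log (2 * (Fintype.card E : ℝ)) := Real.log_pos (by linarith)
    have hNpos : (0 : ℝ) < N := by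
      have h1 : 0 < 4 * S * Real.log (2 * (Fintype.card E : ℝ)) := by positivity
      have h2 : 0 < (N : ℝ) * ε ^ 2 := lt_trans h1 hN
      have h3 : 0 < ε ^ 2 := by positivity
      by_contra hcon
      have h4 : (N : ℝ) ≤ 0 := not_lt.mp hcon
      nlinarith
    let E' := {e : E // 0 < D e}
    have : Nonempty E' := ⟨⟨e0, hDe0⟩⟩
    let π : K → ℝ := fun k => s k / S
    have hπ0 : ∀ k, 0 ≤ π k := fun k => div_nonneg (hs0 k) hS.le
    have hπ1 : ∑ k, π k = 1 := by
      show ∑ k, s k / S = 1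
      rw [← Finset.sum_div, ← hSd, div_self hSne]
    have hSπ : ∀ k, S * π k = s k := fun k => by
      show S * (s k / S) = s k
      field_simp
    let Z : E' → K → ℝ := fun e k => c k e.1 / (π k * D e.1)
    have hZ0 : ∀ e k, 0 ≤ Z e k := fun e k =>
      div_nonneg (hc k e.1) (mul_nonneg (hπ0 k) (hD0 e.1))
    have hZS : ∀ e k, Z e k ≤ S := by
      intro e k
      show c k e.1 / (π k * D e.1) ≤ S
      by_cases hπk : π k = 0
      · rw [hπk, zero_mul, div_zero]
        exact hS.le
      · have hπpos : 0 < π k := lt_of_le_of_ne (hπ0 k) (Ne.symm hπk)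
        rw [div_le_iff₀ (mul_pos hπpos e.2)]
        calc c k e.1 ≤ s k * D e.1 := hs k e.1
          _ = S * (π k * D e.1) := by rw [← mul_assoc, hSπ]
    have hterm : ∀ (e : E') (k : K), π k * Z e k = c k e.1 / D e.1 := by
      intro e k
      show π k * (c k e.1 / (π k * D e.1)) = c k e.1 / D e.1
      by_cases hπk : π k = 0
      · have hsk : s k = 0 := by rw [← hSπ k, hπk, mul_zero]
        have hck : c k e.1 = 0 := by
          have := hs k e.1
          rw [hsk, zero_mul] at this
          exact le_antisymm this (hc k e.1)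
        rw [hck, hπk]
        simp
      · have hDne : D e.1 ≠ 0 := e.2.ne'
        field_simp
    have hmean : ∀ e : E', ∑ k, π k * Z e k = 1 := by
      intro e
      simp only [hterm]
      rw [← Finset.sum_div, ← hD, div_self e.2.ne']
    have hN' : 2 * (Fintype.card E' : ℝ) * Real.exp (-((N : ℝ) * ε ^ 2 / (4 * S))) < 1 := by
      have hcE' : (0 : ℝ) < (Fintype.card E' : ℝ) := by exact_mod_cast Fintype.card_pos
      have hcle : (Fintype.card E' : ℝ) ≤ (Fintype.card E : ℝ) := by
        exact_mod_cast Fintype.card_subtype_le _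
      have h1 : Real.log (2 * (Fintype.card E : ℝ)) < (N : ℝ) * ε ^ 2 / (4 * S) := by
        rw [lt_div_iff₀ (by positivity)]
        linarith
      have h2 : Real.exp (-((N : ℝ) * ε ^ 2 / (4 * S)))
          < Real.exp (-(Real.log (2 * (Fintype.card E : ℝ)))) :=
        Real.exp_lt_exp.mpr (by linarith)
      have h3 : Real.exp (-(Real.log (2 * (Fintype.card E : ℝ))))
          = 1 / (2 * (Fintype.card E : ℝ)) := by
        rw [Real.exp_neg, Real.exp_log (by linarith), one_div]
      rw [h3] at h2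
      calc 2 * (Fintype.card E' : ℝ) * Real.exp (-((N : ℝ) * ε ^ 2 / (4 * S)))
          < 2 * (Fintype.card E' : ℝ) * (1 / (2 * (Fintype.card E : ℝ))) :=
            mul_lt_mul_of_pos_left h2 (by positivity)
        _ = (Fintype.card E' : ℝ) / (Fintype.card E : ℝ) := by
            have : (Fintype.card E : ℝ) ≠ 0 := by linarith
            field_simp
        _ ≤ 1 := by
            rw [div_le_one (by linarith)]
            exact hcle
    obtain ⟨τ, hτπ, hτ⟩ :=
      exists_good_sample π hπ0 hπ1 Z S hS hZ0 hZS hmean ε hε0 hε1 N hN'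
    refine ⟨τ, fun t => 1 / ((N : ℝ) * π (τ t)), fun t => ?_, fun e => ?_⟩
    · have := hτπ t
      positivity
    by_cases he : 0 < D e
    · have hsum : ∑ t, 1 / ((N : ℝ) * π (τ t)) * c (τ t) e
          = D e / N * ∑ t, Z ⟨e, he⟩ (τ t) := by
        rw [Finset.mul_sum]
        refine Finset.sum_congr rfl fun t _ => ?_
        show 1 / ((N : ℝ) * π (τ t)) * c (τ t) e
          = D e / N * (c (τ t) e / (π (τ t) * D e))
        have h1 : π (τ t) ≠ 0 := (hτπ t).ne'
        have h2 : D e ≠ 0 := he.ne'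
        have h3 : (N : ℝ) ≠ 0 := hNpos.ne'
        field_simp
      obtain ⟨hlo, hhi⟩ := hτ ⟨e, he⟩
      rw [hsum]
      have hDN : 0 < D e / N := div_pos he hNpos
      have h3 : (N : ℝ) ≠ 0 := hNpos.ne'
      constructor
      · have := mul_lt_mul_of_pos_left hlo hDN
        have e1 : D e / N * ((1 - ε) * N) = (1 - ε) * D e := by field_simp
        linarith
      · have := mul_lt_mul_of_pos_left hhi hDN
        have e1 : D e / N * ((1 + ε) * N) = (1 + ε) * D e := by field_simp
        linarith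
    · have hDe : D e = 0 := le_antisymm (not_lt.mp he) (hD0 e)
      have hz := hczero e hDe
      rw [hDe]
      simp [hz]

end Vale.Agent.Lib.P249
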