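import Mathlib

namespace Vale.Agent.Lib.P249

open Finset

/-- Total sensitivity of the pairs is bounded by the size of a hub set: if every pair
`i, j` has a hub `w` such that the pairs `i, w` and `j, w` lie in `F` and have totals at most
`Λ` times the total of the pair `i, j`, and `c` satisfies a quasi-triangle inequality with
constant `T`, then there are sensitivity bounds `s` with `∑ k, s k ≤ 2 * T * Λ * |F|`. -/
theorem sens_bound {K V : Type*} [Fintype K] [Fintype V] [DecidableEq V]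
    (c : K → V × V → ℝ) (hc : ∀ k e, 0 ≤ c k e) (T Λ : ℝ) (hT : 0 ≤ T) (hΛ : 0 ≤ Λ)
    (htri : ∀ k i j w, c k (i, j) ≤ T * (c k (i, w) + c k (j, w)))
    (F : Finset (V × V))
    (hub : ∀ i j, ∃ w, (i, w) ∈ F ∧ (j, w) ∈ F ∧
      ∑ k, c k (i, w) ≤ Λ * ∑ k, c k (i, j) ∧ ∑ k, c k (j, w) ≤ Λ * ∑ k, c k (i, j)) :
    ∃ s : K → ℝ, (∀ k, 0 ≤ s k) ∧ (∀ k e, c k e ≤ s k * ∑ k', c k' e) ∧
      ∑ k, s k ≤ 2 * T * Λ * F.card := by
  obtain ⟨D, hD⟩ : ∃ D : V × V → ℝ, ∀ e, D e = ∑ k, c k e := ⟨_, fun _ => rfl⟩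
  have hD0 : ∀ e, 0 ≤ D e := fun e => by
    rw [hD]
    exact Finset.sum_nonneg (fun k _ => hc k e)
  have hq0 : ∀ k f, 0 ≤ c k f / D f := fun k f => div_nonneg (hc k f) (hD0 f)
  obtain ⟨S, hS⟩ : ∃ S : K → ℝ, ∀ k, S k = ∑ f ∈ F, c k f / D f := ⟨_, fun _ => rfl⟩
  have hS0 : ∀ k, 0 ≤ S k := fun k => by
    rw [hS]
    exact Finset.sum_nonneg (fun f _ => hq0 k f)
  refine ⟨fun k => 2 * T * Λ * S k, ?_, ?_, ?_⟩
  · intro k
    exact mul_nonneg (mul_nonneg (mul_nonneg zero_le_two hT) hΛ) (hS0 k)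
  · rintro k ⟨i, j⟩
    obtain ⟨w, hiw, hjw, h1, h2⟩ := hub i j
    rw [← hD, ← hD] at h1 h2
    rw [← hD]
    have key : ∀ g ∈ F, D g ≤ Λ * D (i, j) → c k g ≤ Λ * D (i, j) * S k := by
      intro g hg hgD
      have hle : c k g / D g ≤ S k := by
        rw [hS]
        exact Finset.single_le_sum (f := fun f => c k f / D f) (fun f _ => hq0 k f) hg
      have hLD : 0 ≤ Λ * D (i, j) := mul_nonneg hΛ (hD0 _)
      by_cases hz : D g = 0
      · have hck : c k g = 0 := by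
          rw [hD] at hz
          exact (Finset.sum_eq_zero_iff_of_nonneg (fun k' _ => hc k' g)).mp hz k
            (Finset.mem_univ k)
        rw [hck]
        exact mul_nonneg hLD (hS0 k)
      · calc c k g = (c k g / D g) * D g := by field_simp
          _ ≤ (c k g / D g) * (Λ * D (i, j)) := mul_le_mul_of_nonneg_left hgD (hq0 k g)
          _ ≤ S k * (Λ * D (i, j)) := mul_le_mul_of_nonneg_right hle hLD
          _ = Λ * D (i, j) * S k := by ring
    have k1 := key (i, w) hiw h1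
    have k2 := key (j, w) hjw h2
    calc c k (i, j) ≤ T * (c k (i, w) + c k (j, w)) := htri k i j w
      _ ≤ T * (Λ * D (i, j) * S k + Λ * D (i, j) * S k) :=
        mul_le_mul_of_nonneg_left (add_le_add k1 k2) hT
      _ = 2 * T * Λ * S k * D (i, j) := by ring
  · have hsum : ∑ k, S k ≤ (F.card : ℝ) := by
      have h1 : ∀ f ∈ F, ∑ k, c k f / D f ≤ 1 := by
        intro f _
        rw [← Finset.sum_div, ← hD]
        exact div_self_le_one (D f)
      calc ∑ k, S k = ∑ k, ∑ f ∈ F, c k f / D f := Finset.sum_congr rfl (fun k _ => hS k)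
        _ = ∑ f ∈ F, ∑ k, c k f / D f := Finset.sum_comm
        _ ≤ ∑ f ∈ F, (1 : ℝ) := Finset.sum_le_sum h1
        _ = (F.card : ℝ) := by simp
    calc ∑ k, 2 * T * Λ * S k = 2 * T * Λ * ∑ k, S k := by rw [Finset.mul_sum]
      _ ≤ 2 * T * Λ * (F.card : ℝ) :=
        mul_le_mul_of_nonneg_left hsum (mul_nonneg (mul_nonneg zero_le_two hT) hΛ)

end Vale.Agent.Lib.P249
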