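import Mathlib
import Vale.Agent.Lib.P249.Sample
import Vale.Agent.Lib.P249.Sens
import Vale.Agent.Lib.P249.Hubs

namespace Vale.Agent.Lib.P249

open Finset

/-- Quasi-triangle inequality for `p`-th powers of absolute values. -/
theorem abs_rpow_quasi_tri (p : ℝ) (hp : 1 ≤ p) (a b w : ℝ) :
    |a - b| ^ p ≤ (2 : ℝ) ^ (p - 1) * (|a - w| ^ p + |b - w| ^ p) := by
  have h1 : |a - b| ≤ |a - w| + |b - w| := by
    have : a - b = (a - w) - (b - w) := by ring
    rw [this]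
    exact abs_sub _ _
  have h2 : |a - b| ^ p ≤ (|a - w| + |b - w|) ^ p :=
    Real.rpow_le_rpow (abs_nonneg _) h1 (by linarith)
  have h3 := NNReal.rpow_add_le_mul_rpow_add_rpow ⟨|a - w|, abs_nonneg _⟩ ⟨|b - w|, abs_nonneg _⟩ hp
  have h4 : (|a - w| + |b - w|) ^ p ≤ (2 : ℝ) ^ (p - 1) * (|a - w| ^ p + |b - w| ^ p) := by
    have := NNReal.coe_le_coe.2 h3
    push_cast at this
    exact this
  exact h2.trans h4

/-- The `p`-th root of the `p`-th power sum, raised to the power `p`. -/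
theorem rpow_inv_rpow_self (p : ℝ) (hp : 1 ≤ p) (A : ℝ) (hA : 0 ≤ A) : (A ^ (1 / p)) ^ p = A := by
  rw [← Real.rpow_mul hA, one_div_mul_cancel (by linarith), Real.rpow_one]

/-- Arithmetic of the final dimension bound. -/
theorem dim_arith (p : ℝ) (hp : 1 ≤ p) (ε : ℝ) (hε0 : 0 < ε) (hε1 : ε < 1) (n : ℕ) (hn : 2 ≤ n)
    (S : ℝ) (_hS0 : 0 ≤ S)
    (hS : S ≤ 2 * (2 : ℝ) ^ (p - 1) * ((Nat.log 2 n + 1 : ℕ) : ℝ) ^ p *
      ((n : ℝ) * (6 * ((Nat.log 2 n + 1 : ℕ) : ℝ) ^ 2))) :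
    4 * S * Real.log (2 * ((n : ℝ) * n)) / ε ^ 2 + 1 ≤
      5 * n * (4 * Real.logb 2 n) ^ (p + 3) / ε ^ 2 := by
  have hn' : (2 : ℝ) ≤ n := by exact_mod_cast hn
  have hnpos : (0 : ℝ) < n := by linarith
  have hl1 : (1 : ℝ) ≤ Real.logb 2 n := by
    rw [Real.le_logb_iff_rpow_le (by norm_num) hnpos]
    simpa using hn'
  have hfl : ((Nat.log 2 n : ℕ) : ℝ) ≤ Real.logb 2 n := by
    have h := Real.natFloor_logb_natCast 2 n
    have h2 : ((⌊Real.logb ((2 : ℕ) : ℝ) n⌋₊ : ℕ) : ℝ) ≤ Real.logb ((2 : ℕ) : ℝ) n :=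
      Nat.floor_le (by
        have : (0 : ℝ) ≤ Real.logb 2 n := by linarith
        simpa using this)
    rw [h] at h2
    simpa using h2
  set ℓ : ℝ := Real.logb 2 n with hℓ
  set a : ℝ := 4 * ℓ with ha
  set Lr : ℝ := ((Nat.log 2 n + 1 : ℕ) : ℝ) with hLr
  have hLr1 : Lr ≤ ℓ + 1 := by
    rw [hLr]; push_cast; linarith
  have hLr0 : 0 < Lr := by
    rw [hLr]; positivity
  have ha4 : 4 ≤ a := by rw [ha]; linarith
  have hapos : 0 < a := by linarith
  have h2L : 2 * Lr ≤ a := by rw [ha]; linarith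
  -- (2 L)^p ≤ a^p
  have hpow1 : (2 : ℝ) ^ p * Lr ^ p ≤ a ^ p := by
    rw [← Real.mul_rpow (by norm_num) hLr0.le]
    exact Real.rpow_le_rpow (by positivity) h2L (by linarith)
  have h2p : 2 * (2 : ℝ) ^ (p - 1) = (2 : ℝ) ^ p := by
    rw [Real.rpow_sub (by norm_num), Real.rpow_one]; field_simp
  have hL2 : Lr ^ 2 ≤ a ^ 2 / 4 := by nlinarith
  -- log (2 n^2) ≤ 0.525 a
  have hlog : Real.log (2 * ((n : ℝ) * n)) ≤ 0.525 * a := by
    have h1 : Real.log (2 * ((n : ℝ) * n)) = Real.log 2 + 2 * Real.log n := by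
      rw [Real.log_mul (by norm_num) (by positivity), Real.log_mul hnpos.ne' hnpos.ne']; ring
    have h2 : Real.log n = ℓ * Real.log 2 := by
      rw [hℓ, Real.logb, div_mul_cancel₀]
      exact (Real.log_pos (by norm_num)).ne'
    have h3 := Real.log_two_lt_d9
    have h4 : 0 < Real.log 2 := Real.log_pos (by norm_num)
    rw [h1, h2, ha]
    nlinarith
  have hlog0 : 0 ≤ Real.log (2 * ((n : ℝ) * n)) := by
    apply Real.log_nonneg
    nlinarith
  have hap3 : a ^ (p + 3) = a ^ p * a ^ 3 := by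
    rw [Real.rpow_add hapos]
    norm_num
  have hap0 : 0 < a ^ p := Real.rpow_pos_of_pos hapos p
  have hap1 : 1 ≤ a ^ p := Real.one_le_rpow (by linarith) (by linarith)
  -- bound S
  have hS' : S ≤ a ^ p * ((n : ℝ) * (6 * (a ^ 2 / 4))) := by
    refine hS.trans ?_
    rw [h2p]
    apply mul_le_mul hpow1 _ (by positivity) hap0.le
    apply mul_le_mul_of_nonneg_left _ hnpos.le
    linarith
  have hmain : 4 * S * Real.log (2 * ((n : ℝ) * n)) ≤ 3.15 * n * (a ^ p * a ^ 3) := by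
    have e1 : 4 * S * Real.log (2 * ((n : ℝ) * n)) ≤
        4 * (a ^ p * ((n : ℝ) * (6 * (a ^ 2 / 4)))) * (0.525 * a) := by
      apply mul_le_mul _ hlog hlog0 (by positivity)
      linarith
    refine e1.trans (le_of_eq ?_)
    ring
  have hone : (1 : ℝ) ≤ 1.85 * n * (a ^ p * a ^ 3) := by
    have : (1 : ℝ) ≤ a ^ 3 := by nlinarith
    have : (1 : ℝ) ≤ a ^ p * a ^ 3 := by nlinarith
    nlinarith
  have hε2 : 0 < ε ^ 2 := by positivity
  have hε2' : ε ^ 2 < 1 := by nlinarith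
  rw [hap3, div_add' _ _ _ hε2.ne', div_le_div_iff_of_pos_right hε2]
  nlinarith

/-- Near-linear dimension reduction in `ℓ_p`, `p`-th power form. -/
theorem near_linear (p : ℝ) (hp : 1 ≤ p) (ε : ℝ) (hε0 : 0 < ε) (hε1 : ε < 1) (n m : ℕ)
    (hn : 2 ≤ n) (x : Fin n → Fin m → ℝ) :
    ∃ (d : ℕ) (f : Fin n → Fin d → ℝ),
      (d : ℝ) ≤ 5 * n * (4 * Real.logb 2 n) ^ (p + 3) / ε ^ 2 ∧
      ∀ i j, (1 - ε) * ∑ k, |x i k - x j k| ^ p ≤ ∑ t, |f i t - f j t| ^ p ∧
        ∑ t, |f i t - f j t| ^ p ≤ (1 + ε) * ∑ k, |x i k - x j k| ^ p := by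
  classical
  have hp0 : 0 < p := by linarith
  set c : Fin m → Fin n × Fin n → ℝ := fun k e => |x e.1 k - x e.2 k| ^ p with hc
  have hc0 : ∀ k e, 0 ≤ c k e := fun k e => Real.rpow_nonneg (abs_nonneg _) _
  have hD0 : ∀ e, 0 ≤ ∑ k, c k e := fun e => Finset.sum_nonneg (fun k _ => hc0 k e)
  set ρ : Fin n → Fin n → ℝ := fun i j => (∑ k, c k (i, j)) ^ (1 / p) with hρ
  have hρ0 : ∀ i j, 0 ≤ ρ i j := fun i j => Real.rpow_nonneg (hD0 _) _
  have hρp : ∀ i j, (ρ i j) ^ p = ∑ k, c k (i, j) := fun i j =>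
    rpow_inv_rpow_self p hp _ (hD0 _)
  have h0 : ∀ v, ρ v v = 0 := by
    intro v
    simp only [hρ, hc, sub_self, abs_zero, Real.zero_rpow hp0.ne', Finset.sum_const_zero]
    exact Real.zero_rpow (one_div_ne_zero hp0.ne')
  have hsymm : ∀ u v, ρ u v = ρ v u := by
    intro u v
    simp only [hρ, hc]
    congr 1
    exact Finset.sum_congr rfl (fun k _ => by rw [abs_sub_comm])
  have htri : ∀ u v w, ρ u w ≤ ρ u v + ρ v w := by
    intro u v w
    have h := Real.Lp_add_le (Finset.univ : Finset (Fin m)) (fun k => x u k - x v k)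
      (fun k => x v k - x w k) hp
    simp only [hρ, hc]
    have e : ∀ k, x u k - x v k + (x v k - x w k) = x u k - x w k := fun k => by ring
    simpa [e] using h
  set L : ℕ := Nat.log 2 n + 1 with hLdef
  have hL : Fintype.card (Fin n) < 2 ^ L := by
    rw [Fintype.card_fin]
    exact Nat.lt_pow_succ_log_self (by norm_num) n
  obtain ⟨H, hHcard, hHhub⟩ := exists_hubs ρ h0 hsymm htri L hL
  set F : Finset (Fin n × Fin n) :=
    (Finset.univ : Finset (Fin n)).biUnion (fun v => (H v).image (fun w => (v, w))) with hF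
  have hFmem : ∀ v w, w ∈ H v → (v, w) ∈ F := by
    intro v w hw
    rw [hF, Finset.mem_biUnion]
    exact ⟨v, Finset.mem_univ _, Finset.mem_image.2 ⟨w, hw, rfl⟩⟩
  have hFcard : (F.card : ℝ) ≤ (n : ℝ) * (6 * (L : ℝ) ^ 2) := by
    have h1 : F.card ≤ ∑ v : Fin n, ((H v).image (fun w => (v, w))).card :=
      Finset.card_biUnion_le
    have h2 : ∑ v : Fin n, ((H v).image (fun w => (v, w))).card ≤ ∑ _v : Fin n, 6 * L ^ 2 :=
      Finset.sum_le_sum (fun v _ => Finset.card_image_le.trans (hHcard v))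
    have h3 : F.card ≤ n * (6 * L ^ 2) := by
      refine (h1.trans h2).trans ?_
      simp
    exact_mod_cast h3
  have hLpos : (0 : ℝ) ≤ (L : ℝ) := Nat.cast_nonneg _
  have hub : ∀ i j, ∃ w, (i, w) ∈ F ∧ (j, w) ∈ F ∧
      ∑ k, c k (i, w) ≤ (L : ℝ) ^ p * ∑ k, c k (i, j) ∧
      ∑ k, c k (j, w) ≤ (L : ℝ) ^ p * ∑ k, c k (i, j) := by
    intro i j
    obtain ⟨w, hwi, hwj, h1, h2⟩ := hHhub i j
    refine ⟨w, hFmem i w hwi, hFmem j w hwj, ?_, ?_⟩
    · rw [← hρp i w, ← hρp i j, ← Real.mul_rpow hLpos (hρ0 i j)]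
      exact Real.rpow_le_rpow (hρ0 i w) h1 hp0.le
    · rw [← hρp j w, ← hρp i j, ← Real.mul_rpow hLpos (hρ0 i j)]
      exact Real.rpow_le_rpow (hρ0 j w) h2 hp0.le
  have hquasi : ∀ k i j w, c k (i, j) ≤ (2 : ℝ) ^ (p - 1) * (c k (i, w) + c k (j, w)) :=
    fun k i j w => abs_rpow_quasi_tri p hp _ _ _
  obtain ⟨s, hs0, hs, hsum⟩ := sens_bound c hc0 ((2 : ℝ) ^ (p - 1)) ((L : ℝ) ^ p)
    (Real.rpow_nonneg (by norm_num) _) (Real.rpow_nonneg hLpos _) hquasi F hub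
  have hSnn : 0 ≤ ∑ k, s k := Finset.sum_nonneg (fun k _ => hs0 k)
  have hbound0 : (0 : ℝ) ≤ 5 * n * (4 * Real.logb 2 n) ^ (p + 3) / ε ^ 2 := by
    have : (0 : ℝ) ≤ Real.logb 2 n := Real.logb_nonneg (by norm_num) (by
      have : (2 : ℝ) ≤ n := by exact_mod_cast hn
      linarith)
    positivity
  rcases hSnn.eq_or_lt with hS0 | hSpos
  · -- all distances vanish
    have hs_all : ∀ k, s k = 0 := by
      intro k
      exact (Finset.sum_eq_zero_iff_of_nonneg (fun k _ => hs0 k)).1 hS0.symm k (Finset.mem_univ _)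
    have hc_all : ∀ k e, c k e = 0 := by
      intro k e
      have := hs k e
      rw [hs_all k, zero_mul] at this
      exact le_antisymm this (hc0 k e)
    refine ⟨0, fun _ _ => 0, by simpa using hbound0, ?_⟩
    intro i j
    have : ∑ k, |x i k - x j k| ^ p = 0 :=
      Finset.sum_eq_zero (fun k _ => hc_all k (i, j))
    rw [this]
    simp
  · set N : ℕ := ⌊4 * (∑ k, s k) * Real.log (2 * ((n : ℝ) * n)) / ε ^ 2⌋₊ + 1 with hN
    have hε2 : 0 < ε ^ 2 := by positivity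
    have hcard : (Fintype.card (Fin n × Fin n) : ℝ) = (n : ℝ) * n := by
      simp [Fintype.card_prod]
    have hNlt : 4 * (∑ k, s k) * Real.log (2 * (Fintype.card (Fin n × Fin n) : ℝ)) <
        (N : ℝ) * ε ^ 2 := by
      rw [hcard, ← div_lt_iff₀ hε2, hN]
      push_cast
      exact Nat.lt_floor_add_one _
    obtain ⟨τ, w, hw0, hw⟩ := exists_sample_weights c hc0 s hs0 hs hSpos ε hε0 hε1 N hNlt
    refine ⟨N, fun i t => (w t) ^ (1 / p) * x i (τ t), ?_, ?_⟩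
    · have hlog0 : 0 ≤ Real.log (2 * ((n : ℝ) * n)) := by
        apply Real.log_nonneg
        have : (2 : ℝ) ≤ n := by exact_mod_cast hn
        nlinarith
      have h1 : (N : ℝ) ≤ 4 * (∑ k, s k) * Real.log (2 * ((n : ℝ) * n)) / ε ^ 2 + 1 := by
        rw [hN]
        push_cast
        have := Nat.floor_le (a := 4 * (∑ k, s k) * Real.log (2 * ((n : ℝ) * n)) / ε ^ 2)
          (by positivity)
        linarith
      refine h1.trans (dim_arith p hp ε hε0 hε1 n hn _ hSnn ?_)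
      refine hsum.trans ?_
      have : (0 : ℝ) ≤ 2 * (2 : ℝ) ^ (p - 1) * (L : ℝ) ^ p := by positivity
      exact mul_le_mul_of_nonneg_left hFcard this
    · intro i j
      have hterm : ∀ t, |(w t) ^ (1 / p) * x i (τ t) - (w t) ^ (1 / p) * x j (τ t)| ^ p =
          w t * c (τ t) (i, j) := by
        intro t
        rw [← mul_sub, abs_mul, abs_of_nonneg (Real.rpow_nonneg (hw0 t) _),
          Real.mul_rpow (Real.rpow_nonneg (hw0 t) _) (abs_nonneg _),
          rpow_inv_rpow_self p hp _ (hw0 t)]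
      simp only [hterm]
      exact hw (i, j)

/-- Near-linear dimension reduction in `ℓ_p`, distortion form. -/
theorem near_linear_distortion (p : ℝ) (hp : 1 ≤ p) (D : ℝ) (hD : 1 < D) (n m : ℕ)
    (hn : 2 ≤ n) (x : Fin n → Fin m → ℝ) :
    ∃ (d : ℕ) (f : Fin n → Fin d → ℝ) (s : ℝ),
      (d : ℝ) ≤ 45 * n * (4 * Real.logb 2 n) ^ (p + 3) / (min (D - 1) 1) ^ 2 ∧ 0 < s ∧
      ∀ i j, s * (∑ k, |x i k - x j k| ^ p) ^ (1 / p) ≤ (∑ t, |f i t - f j t| ^ p) ^ (1 / p) ∧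
        (∑ t, |f i t - f j t| ^ p) ^ (1 / p) ≤
          D * s * (∑ k, |x i k - x j k| ^ p) ^ (1 / p) := by
  have hp0 : 0 < p := by linarith
  set μ : ℝ := min (D - 1) 1 with hμ
  have hμ0 : 0 < μ := lt_min (by linarith) one_pos
  have hμ1 : μ ≤ 1 := min_le_right _ _
  have hμD : μ ≤ D - 1 := min_le_left _ _
  have hε0 : 0 < μ / 3 := by positivity
  have hε1 : μ / 3 < 1 := by linarith
  obtain ⟨d, f, hd, hf⟩ := near_linear p hp (μ / 3) hε0 hε1 n m hn x
  have h1ε : 0 < 1 - μ / 3 := by linarith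
  refine ⟨d, f, (1 - μ / 3) ^ (1 / p), ?_, Real.rpow_pos_of_pos h1ε _, ?_⟩
  · refine hd.trans (le_of_eq ?_)
    field_simp
    ring
  · intro i j
    obtain ⟨h1, h2⟩ := hf i j
    set A : ℝ := ∑ k, |x i k - x j k| ^ p with hA
    set B : ℝ := ∑ t, |f i t - f j t| ^ p with hB
    have hA0 : 0 ≤ A := Finset.sum_nonneg (fun k _ => Real.rpow_nonneg (abs_nonneg _) _)
    have hB0 : 0 ≤ B := Finset.sum_nonneg (fun k _ => Real.rpow_nonneg (abs_nonneg _) _)
    have hinv : 0 ≤ 1 / p := by positivity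
    constructor
    · rw [← Real.mul_rpow h1ε.le hA0]
      exact Real.rpow_le_rpow (by positivity) h1 hinv
    · have h3 : B ^ (1 / p) ≤ ((1 + μ / 3) * A) ^ (1 / p) := Real.rpow_le_rpow hB0 h2 hinv
      have h4 : (1 + μ / 3) ≤ D * (1 - μ / 3) := by nlinarith
      have h5 : ((1 + μ / 3) * A) ^ (1 / p) ≤ (D * (1 - μ / 3) * A) ^ (1 / p) :=
        Real.rpow_le_rpow (by positivity) (mul_le_mul_of_nonneg_right h4 hA0) hinv
      have hD0 : 0 ≤ D := by linarith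
      have h6 : (D * (1 - μ / 3) * A) ^ (1 / p) =
          D ^ (1 / p) * (1 - μ / 3) ^ (1 / p) * A ^ (1 / p) := by
        rw [Real.mul_rpow (by positivity) hA0, Real.mul_rpow hD0 h1ε.le]
      have h7 : D ^ (1 / p) ≤ D := by
        have := Real.rpow_le_rpow_of_exponent_le hD.le (show 1 / p ≤ 1 by
          rw [div_le_one hp0]; exact hp)
        simpa using this
      have h8 : 0 ≤ (1 - μ / 3) ^ (1 / p) * A ^ (1 / p) := by positivity
      calc B ^ (1 / p) ≤ D ^ (1 / p) * (1 - μ / 3) ^ (1 / p) * A ^ (1 / p) := by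
            rw [← h6]; exact h3.trans h5
        _ = D ^ (1 / p) * ((1 - μ / 3) ^ (1 / p) * A ^ (1 / p)) := by ring
        _ ≤ D * ((1 - μ / 3) ^ (1 / p) * A ^ (1 / p)) := mul_le_mul_of_nonneg_right h7 h8
        _ = D * (1 - μ / 3) ^ (1 / p) * A ^ (1 / p) := by ring

end Vale.Agent.Lib.P249
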